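import Mathlib

/-!
# P101, second formulation: definitions used in the statement

Characters of `F_ω(A)` through `ω`-central bounded sequences; the spatial tensor product as a
concrete C*-algebra of operators on the Hilbert space tensor product; the Jiang-Su algebra through
its textbook properties.
-/

open scoped TensorProduct BoundedContinuousFunction Topology ComplexOrder
open Filter

namespace P101B

universe u

section Spatial

variable {H K E : Type u} [NormedAddCommGroup H] [InnerProductSpace ℂ H]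
  [NormedAddCommGroup K] [InnerProductSpace ℂ K] [NormedAddCommGroup E] [InnerProductSpace ℂ E]

/-- The map `τ : H × K → E`, written `x ⊗ y = τ x y`, makes the Hilbert space `E` the Hilbert space
tensor product of `H` and `K`: `⟪x ⊗ y, x' ⊗ y'⟫ = ⟪x, x'⟫ ⟪y, y'⟫` (so that `τ` is bilinear), and
the `x ⊗ y` span a dense subspace. -/
structure IsHilbertTensor (τ : H → K → E) : Prop where
  inner_eq : ∀ x x' y y', inner ℂ (τ x y) (τ x' y') = inner ℂ x x' * inner ℂ y y'
  dense : Dense (Submodule.span ℂ {e | ∃ x y, τ x y = e} : Set E)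

/-- `T` is the operator `S ⊗ R` on `E = H ⊗ K`: `T(x ⊗ y) = S x ⊗ R y`. -/
def IsTensorOp (τ : H → K → E) (S : H →L[ℂ] H) (R : K →L[ℂ] K) (T : E →L[ℂ] E) : Prop :=
  ∀ x y, T (τ x y) = τ (S x) (R y)

/-- `π` is a faithful (injective, unital) *-representation of the C*-algebra `A` on the Hilbert
space `H`. -/
structure IsRep {A : Type u} [CStarAlgebra A] [CompleteSpace H] (π : A → H →L[ℂ] H) : Prop where
  map_add : ∀ a b, π (a + b) = π a + π b
  map_smul : ∀ (c : ℂ) a, π (c • a) = c • π a
  map_mul : ∀ a b, π (a * b) = π a * π b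
  map_star : ∀ a, π (star a) = star (π a)
  map_one : π 1 = 1
  injective : Function.Injective π

/-- The minimal (spatial) tensor product of two algebras in the (faithful) representations
`π : A → B(H)`, `ρ : B → B(K)`: the closed linear span in `B(H ⊗ K)` of all operators
`π(a) ⊗ ρ(b)`. -/
def spatialTensor {A B : Type u} (τ : H → K → E) (π : A → H →L[ℂ] H) (ρ : B → K →L[ℂ] K) :
    Set (E →L[ℂ] E) :=
  closure (Submodule.span ℂ {T | ∃ a b, IsTensorOp τ (π a) (ρ b) T} : Set (E →L[ℂ] E))

/-- `z ⊗ 1` and `1 ⊗ z` are approximately unitarily equivalent in the spatial tensor product of `B`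
with itself. -/
def FlipIn {B : Type u} [CompleteSpace E] (τ : K → K → E) (ρ : B → K →L[ℂ] K) : Prop :=
  ∀ (S : Finset B) (ε : ℝ), 0 < ε → ∃ U ∈ spatialTensor τ ρ ρ, star U * U = 1 ∧ U * star U = 1 ∧
    ∀ z ∈ S, ∀ P Q : E →L[ℂ] E, IsTensorOp τ (ρ z) 1 P → IsTensorOp τ 1 (ρ z) Q →
      ‖U * P * star U - Q‖ < ε

/-- The C*-algebra `C` is *-isomorphic to the spatial tensor product of `A` and `B` (as represented
by `π`, `ρ`): there is an injective *-homomorphism from `C` onto it. -/
def IsoSpatial [CompleteSpace E] (C : Type u) [CStarAlgebra C] {A B : Type u} (τ : H → K → E)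
    (π : A → H →L[ℂ] H) (ρ : B → K →L[ℂ] K) : Prop :=
  ∃ Θ : C → E →L[ℂ] E, IsRep Θ ∧ Set.range Θ = spatialTensor τ π ρ

/-- `C ≅ A ⊗ B` (spatial tensor product, computed in any faithful representations of `A` and `B` on
Hilbert spaces and in any copy of the Hilbert space tensor product). -/
def IsoTensor (C A B : Type u) [CStarAlgebra C] [CStarAlgebra A] [CStarAlgebra B] : Prop :=
  ∀ (H K E : Type u) [NormedAddCommGroup H] [InnerProductSpace ℂ H] [CompleteSpace H]
    [NormedAddCommGroup K] [InnerProductSpace ℂ K] [CompleteSpace K]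
    [NormedAddCommGroup E] [InnerProductSpace ℂ E] [CompleteSpace E]
    (τ : H → K → E) (π : A → H →L[ℂ] H) (ρ : B → K →L[ℂ] K),
    IsHilbertTensor τ → IsRep π → IsRep ρ → IsoSpatial C τ π ρ

end Spatial

section Central

variable {A : Type u} [CStarAlgebra A]

/-- `x_n → 0` in norm along `ω`. -/
def IsNull (ω : Ultrafilter ℕ) (x : ℕ → A) : Prop :=
  Tendsto (fun n => ‖x n‖) (ω : Filter ℕ) (𝓝 0)

/-- The bounded sequence `(x_n)` is `ω`-central: `lim_{n → ω} ‖x_n a - a x_n‖ = 0` for every
`a ∈ A`.  (The C*-algebra of these sequences, modulo those which tend to `0` along `ω`, is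
`F_ω(A) = A_ω ∩ A'`.) -/
def IsCentral (ω : Ultrafilter ℕ) (x : ℕ →ᵇ A) : Prop :=
  ∀ a : A, IsNull ω fun n => x n * a - a * x n

/-- `χ` is a character of `F_ω(A)`, lifted to the `ω`-central bounded sequences (the values of `χ`
elsewhere do not matter). -/
structure IsCharacter (ω : Ultrafilter ℕ) (χ : (ℕ →ᵇ A) → ℂ) : Prop where
  map_add : ∀ x y, IsCentral ω x → IsCentral ω y → χ (x + y) = χ x + χ y
  map_smul : ∀ (c : ℂ) x, IsCentral ω x → χ (c • x) = c * χ x
  map_mul : ∀ x y, IsCentral ω x → IsCentral ω y → χ (x * y) = χ x * χ y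
  map_star : ∀ x, IsCentral ω x → χ (star x) = star (χ x)
  map_one : χ 1 = 1
  map_null : ∀ x : ℕ →ᵇ A, IsNull ω ⇑x → χ x = 0

end Central

section DimDrop

/-- `f` is an element of the dimension drop algebra `I(p, q)`: a continuous function from `[0, 1]`
to `M_p ⊗ M_q` (matrices indexed by pairs) with `f(0) ∈ M_p ⊗ 1` and `f(1) ∈ 1 ⊗ M_q`. -/
def InDrop (p q : ℕ) (f : unitInterval → Matrix (Fin p × Fin q) (Fin p × Fin q) ℂ) : Prop :=
  Continuous f ∧
    (∃ a : Matrix (Fin p) (Fin p) ℂ, f 0 = Matrix.kroneckerMap (fun s t => s * t) a 1) ∧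
    (∃ b : Matrix (Fin q) (Fin q) ℂ, f 1 = Matrix.kroneckerMap (fun s t => s * t) 1 b)

/-- `φ` lifts a unital *-homomorphism from `I(p, q)` to `F_ω(A)` to bounded sequences: all the
relations of a unital *-homomorphism and of commuting with `A` hold in the limit along `ω`. -/
structure IsCentralHom {A : Type u} [CStarAlgebra A] (ω : Ultrafilter ℕ) (p q : ℕ)
    (φ : (unitInterval → Matrix (Fin p × Fin q) (Fin p × Fin q) ℂ) → (ℕ →ᵇ A)) : Prop where
  map_add : ∀ f g, InDrop p q f → InDrop p q g → IsNull ω fun n => φ (f + g) n - (φ f n + φ g n)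
  map_smul : ∀ (c : ℂ) f, InDrop p q f → IsNull ω fun n => φ (c • f) n - c • φ f n
  map_mul : ∀ f g, InDrop p q f → InDrop p q g → IsNull ω fun n => φ (f * g) n - φ f n * φ g n
  map_star : ∀ f, InDrop p q f → IsNull ω fun n => φ (star f) n - star (φ f n)
  map_one : IsNull ω fun n => φ 1 n - 1
  central : ∀ f, InDrop p q f → IsCentral ω (φ f)

/-- `j` restricts to an injective unital *-homomorphism from `I(p, q)` to `Z`. -/
structure IsDropHom {Z : Type u} [CStarAlgebra Z] (p q : ℕ)
    (j : (unitInterval → Matrix (Fin p × Fin q) (Fin p × Fin q) ℂ) → Z) : Prop where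
  map_add : ∀ f g, InDrop p q f → InDrop p q g → j (f + g) = j f + j g
  map_smul : ∀ (c : ℂ) f, InDrop p q f → j (c • f) = c • j f
  map_mul : ∀ f g, InDrop p q f → InDrop p q g → j (f * g) = j f * j g
  map_star : ∀ f, InDrop p q f → j (star f) = star (j f)
  map_one : j 1 = 1
  injective : ∀ f g, InDrop p q f → InDrop p q g → j f = j g → f = g

/-- `R` is a (closed) C*-subalgebra of `Z`, the image of `I(p, q)` under an injective unital
*-homomorphism. -/
def IsDropRange {Z : Type u} [CStarAlgebra Z] (p q : ℕ) (R : Set Z) : Prop :=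
  IsClosed R ∧ ∃ j, IsDropHom p q j ∧ ∀ z, z ∈ R ↔ ∃ f, InDrop p q f ∧ j f = z

/-- `Z` is the closure of the union of an increasing sequence of C*-subalgebras, each of them a copy
of a prime dimension drop algebra `I(p, q)` (`p`, `q` coprime). -/
def IsPrimeDimDropLimit (Z : Type u) [CStarAlgebra Z] : Prop :=
  ∃ R : ℕ → Set Z, (∀ k, ∃ p q : ℕ, 1 ≤ p ∧ 1 ≤ q ∧ Nat.Coprime p q ∧ IsDropRange p q (R k)) ∧
    (∀ k, R k ⊆ R (k + 1)) ∧ Dense (⋃ k, R k)

end DimDrop

section JiangSu

/-- The two C*-norms `‖f ·‖` and `‖g ·‖` on an algebraic tensor product agree. -/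
def SameNorm {Z B C D : Type u} [CStarAlgebra Z] [CStarAlgebra B] [CStarAlgebra C] [CStarAlgebra D]
    (f : Z ⊗[ℂ] B →⋆ₐ[ℂ] C) (g : Z ⊗[ℂ] B →⋆ₐ[ℂ] D) : Prop :=
  Function.Injective f → Function.Injective g → ∀ t, ‖f t‖ = ‖g t‖

/-- Nuclearity: for every (unital) C*-algebra `B` all C*-norms on the algebraic tensor product
`Z ⊗ B` agree. -/
def IsNuclear (Z : Type u) [CStarAlgebra Z] : Prop :=
  ∀ (B C D : Type u) [CStarAlgebra B] [CStarAlgebra C] [CStarAlgebra D]
    (f : Z ⊗[ℂ] B →⋆ₐ[ℂ] C) (g : Z ⊗[ℂ] B →⋆ₐ[ℂ] D), SameNorm f g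

/-- A tracial state. -/
structure IsTracialState {Z : Type u} [CStarAlgebra Z] (τ : Z →ₗ[ℂ] ℂ) : Prop where
  map_one : τ 1 = 1
  nonneg : ∀ x, 0 ≤ τ (star x * x)
  trace : ∀ x y, τ (x * y) = τ (y * x)

/-- Approximately inner half flip: `z ⊗ 1` and `1 ⊗ z` are approximately unitarily equivalent in
the spatial tensor product `Z ⊗ Z` (computed in any faithful representation of `Z`). -/
def HasHalfFlip (Z : Type u) [CStarAlgebra Z] : Prop :=
  ∀ (K E : Type u) [NormedAddCommGroup K] [InnerProductSpace ℂ K] [CompleteSpace K]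
    [NormedAddCommGroup E] [InnerProductSpace ℂ E] [CompleteSpace E]
    (τ : K → K → E) (ρ : Z → K →L[ℂ] K), IsHilbertTensor τ → IsRep ρ → FlipIn τ ρ

/-- `Z` is (a copy of) the Jiang-Su algebra.  All the properties are proved for it in the paper of
Jiang and Su (1999), and they determine it up to isomorphism. -/
structure IsJiangSu (Z : Type u) [CStarAlgebra Z] : Prop where
  simple : IsSimpleRing Z
  separable : TopologicalSpace.SeparableSpace Z
  nuclear : IsNuclear Z
  halfFlip : HasHalfFlip Z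
  infiniteDimensional : ¬ FiniteDimensional ℂ Z
  uniqueTrace : ∃! τ : Z →ₗ[ℂ] ℂ, IsTracialState τ
  limit : IsPrimeDimDropLimit Z

end JiangSu

end P101B
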