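import Mathlib
import Vale.Agent.Lib.P101B.Defs

/-!
# The spatial tensor product is a C*-tensor product
-/

open scoped TensorProduct BoundedContinuousFunction Topology ComplexOrder
open Filter

namespace P101B

universe u

section Ops

variable {H K E : Type u} [NormedAddCommGroup H] [InnerProductSpace ℂ H]
  [NormedAddCommGroup K] [InnerProductSpace ℂ K]
  [NormedAddCommGroup E] [InnerProductSpace ℂ E] {τ : H → K → E}

omit [NormedAddCommGroup H] [InnerProductSpace ℂ H] [NormedAddCommGroup K]
  [InnerProductSpace ℂ K] in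
/-- a combination of elementary tensors that is orthogonal to all of them vanishes. -/
theorem eq_zero_of_inner {u : E} (h : ∀ x y, inner ℂ u (τ x y) = 0)
    (hu : u ∈ Submodule.span ℂ {e | ∃ x y, τ x y = e}) : u = 0 := by
  have h1 : ∀ v ∈ Submodule.span ℂ {e | ∃ x y, τ x y = e}, inner ℂ u v = 0 := by
    intro v hv
    induction hv using Submodule.span_induction with
    | mem v hv =>
      obtain ⟨x, y, rfl⟩ := hv
      exact h x y
    | zero => exact inner_zero_right _
    | add v w _ _ hv hw => rw [inner_add_right, hv, hw, add_zero]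
    | smul c v _ hv => rw [inner_smul_right, hv, mul_zero]
  exact inner_self_eq_zero.1 (h1 u hu)

omit [NormedAddCommGroup H] [InnerProductSpace ℂ H] [NormedAddCommGroup K]
  [InnerProductSpace ℂ K] in
theorem tau_mem (x : H) (y : K) : τ x y ∈ Submodule.span ℂ {e | ∃ x y, τ x y = e} :=
  Submodule.subset_span ⟨x, y, rfl⟩

/-- `τ` as a bilinear map -/
noncomputable def bil (hτ : IsHilbertTensor τ) : H →ₗ[ℂ] K →ₗ[ℂ] E :=
  LinearMap.mk₂ ℂ τ
    (fun x x' y => sub_eq_zero.1 (eq_zero_of_inner (τ := τ) (fun a b => by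
      rw [inner_sub_left, inner_add_left, hτ.inner_eq, hτ.inner_eq, hτ.inner_eq, inner_add_left]
      ring) (sub_mem (tau_mem _ _) (add_mem (tau_mem _ _) (tau_mem _ _)))))
    (fun c x y => sub_eq_zero.1 (eq_zero_of_inner (τ := τ) (fun a b => by
      rw [inner_sub_left, inner_smul_left, hτ.inner_eq, hτ.inner_eq, inner_smul_left]
      ring) (sub_mem (tau_mem _ _) (Submodule.smul_mem _ _ (tau_mem _ _)))))
    (fun x y y' => sub_eq_zero.1 (eq_zero_of_inner (τ := τ) (fun a b => by
      rw [inner_sub_left, inner_add_left, hτ.inner_eq, hτ.inner_eq, hτ.inner_eq, inner_add_left]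
      ring) (sub_mem (tau_mem _ _) (add_mem (tau_mem _ _) (tau_mem _ _)))))
    (fun c x y => sub_eq_zero.1 (eq_zero_of_inner (τ := τ) (fun a b => by
      rw [inner_sub_left, inner_smul_left, hτ.inner_eq, hτ.inner_eq, inner_smul_left]
      ring) (sub_mem (tau_mem _ _) (Submodule.smul_mem _ _ (tau_mem _ _)))))

theorem bil_apply (hτ : IsHilbertTensor τ) (x : H) (y : K) : bil hτ x y = τ x y := rfl

/-- the embedding of the algebraic tensor product. -/
noncomputable def emb (hτ : IsHilbertTensor τ) : H ⊗[ℂ] K →ₗᵢ[ℂ] E :=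
  (TensorProduct.lift (bil hτ)).isometryOfInner fun s t => by
    induction s using TensorProduct.induction_on with
    | zero => simp
    | add x y hx hy => rw [map_add, inner_add_left, inner_add_left, hx, hy]
    | tmul a b =>
      induction t using TensorProduct.induction_on with
      | zero => simp
      | add x y hx hy => rw [map_add, inner_add_right, inner_add_right, hx, hy]
      | tmul c d =>
        rw [TensorProduct.lift.tmul, TensorProduct.lift.tmul, bil_apply, bil_apply, hτ.inner_eq,
          TensorProduct.inner_tmul]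

theorem emb_tmul (hτ : IsHilbertTensor τ) (x : H) (y : K) : emb hτ (x ⊗ₜ y) = τ x y :=
  TensorProduct.lift.tmul _ _

theorem denseRange_emb (hτ : IsHilbertTensor τ) : DenseRange (emb hτ) := by
  refine hτ.dense.mono ?_
  have : Submodule.span ℂ {e | ∃ x y, τ x y = e} ≤ LinearMap.range (emb hτ).toLinearMap := by
    rw [Submodule.span_le]
    rintro _ ⟨x, y, rfl⟩
    exact ⟨x ⊗ₜ y, emb_tmul hτ x y⟩
  exact this

theorem inner_emb (hτ : IsHilbertTensor τ) (s t : H ⊗[ℂ] K) :
    inner ℂ (emb hτ s) (emb hτ t) = inner ℂ s t :=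
  (emb hτ).inner_map_map s t

variable [CompleteSpace E]

/-- the operator `S ⊗ T` -/
noncomputable def tensorOp (hτ : IsHilbertTensor τ) (S : H →L[ℂ] H) (T : K →L[ℂ] K) : E →L[ℂ] E :=
  ((emb hτ).toContinuousLinearMap.comp (TensorProduct.mapL S T)).extend
    (emb hτ).toContinuousLinearMap

theorem tensorOp_emb (hτ : IsHilbertTensor τ) (S : H →L[ℂ] H) (T : K →L[ℂ] K) (t : H ⊗[ℂ] K) :
    tensorOp hτ S T (emb hτ t) = emb hτ (TensorProduct.mapL S T t) :=
  ContinuousLinearMap.extend_eq _ (denseRange_emb hτ) (emb hτ).isometry.isUniformInducing t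

omit [CompleteSpace E] in
/-- operators on the Hilbert tensor product agree if they agree on the algebraic one. -/
theorem ext_emb (hτ : IsHilbertTensor τ) {X Y : E →L[ℂ] E}
    (h : ∀ t, X (emb hτ t) = Y (emb hτ t)) : X = Y := by
  have h1 : (X : E → E) = Y :=
    (denseRange_emb hτ).equalizer X.continuous Y.continuous (funext h)
  exact DFunLike.coe_injective h1

theorem isTensorOp_iff (hτ : IsHilbertTensor τ) (S : H →L[ℂ] H) (T : K →L[ℂ] K) (X : E →L[ℂ] E) :
    IsTensorOp τ S T X ↔ X = tensorOp hτ S T := by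
  constructor
  · intro h
    apply ext_emb hτ
    intro t
    rw [tensorOp_emb]
    induction t using TensorProduct.induction_on with
    | zero => simp
    | add x y hx hy => simp only [map_add, hx, hy]
    | tmul a b => rw [emb_tmul, TensorProduct.mapL_tmul, emb_tmul, h a b]
  · rintro rfl x y
    rw [← emb_tmul hτ, tensorOp_emb, TensorProduct.mapL_tmul, emb_tmul]

theorem tensorOp_mul (hτ : IsHilbertTensor τ) (S S' : H →L[ℂ] H) (T T' : K →L[ℂ] K) :
    tensorOp hτ (S * S') (T * T') = tensorOp hτ S T * tensorOp hτ S' T' := by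
  apply ext_emb hτ
  intro t
  rw [mul_apply_eq_comp, tensorOp_emb, tensorOp_emb, tensorOp_emb,
    TensorProduct.mapL_mul, mul_apply_eq_comp]

theorem tensorOp_one (hτ : IsHilbertTensor τ) :
    tensorOp hτ (1 : H →L[ℂ] H) (1 : K →L[ℂ] K) = 1 := by
  apply ext_emb hτ
  intro t
  rw [tensorOp_emb]
  have : TensorProduct.mapL (1 : H →L[ℂ] H) (1 : K →L[ℂ] K) = 1 := TensorProduct.mapL_id_id
  rw [this]
  rfl

theorem tensorOp_add_left (hτ : IsHilbertTensor τ) (S S' : H →L[ℂ] H) (T : K →L[ℂ] K) :
    tensorOp hτ (S + S') T = tensorOp hτ S T + tensorOp hτ S' T := by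
  apply ext_emb hτ
  intro t
  rw [_root_.add_apply, tensorOp_emb, tensorOp_emb, tensorOp_emb,
    TensorProduct.mapL_add_left, _root_.add_apply, map_add]

theorem tensorOp_add_right (hτ : IsHilbertTensor τ) (S : H →L[ℂ] H) (T T' : K →L[ℂ] K) :
    tensorOp hτ S (T + T') = tensorOp hτ S T + tensorOp hτ S T' := by
  apply ext_emb hτ
  intro t
  rw [_root_.add_apply, tensorOp_emb, tensorOp_emb, tensorOp_emb,
    TensorProduct.mapL_add_right, _root_.add_apply, map_add]

theorem tensorOp_smul_left (hτ : IsHilbertTensor τ) (c : ℂ) (S : H →L[ℂ] H) (T : K →L[ℂ] K) :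
    tensorOp hτ (c • S) T = c • tensorOp hτ S T := by
  apply ext_emb hτ
  intro t
  rw [_root_.smul_apply, tensorOp_emb, tensorOp_emb,
    TensorProduct.mapL_smul_left, _root_.smul_apply, map_smul]

theorem tensorOp_smul_right (hτ : IsHilbertTensor τ) (c : ℂ) (S : H →L[ℂ] H) (T : K →L[ℂ] K) :
    tensorOp hτ S (c • T) = c • tensorOp hτ S T := by
  apply ext_emb hτ
  intro t
  rw [_root_.smul_apply, tensorOp_emb, tensorOp_emb,
    TensorProduct.mapL_smul_right, _root_.smul_apply, map_smul]

theorem tensorOp_star (hτ : IsHilbertTensor τ) [CompleteSpace H] [CompleteSpace K]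
    (S : H →L[ℂ] H) (T : K →L[ℂ] K) :
    star (tensorOp hτ S T) = tensorOp hτ (star S) (star T) := by
  rw [ContinuousLinearMap.star_eq_adjoint, eq_comm, ContinuousLinearMap.eq_adjoint_iff]
  have h1 : ∀ s t : H ⊗[ℂ] K, inner ℂ (TensorProduct.mapL (star S) (star T) s) t =
      inner ℂ s (TensorProduct.mapL S T t) := by
    intro s t
    induction s using TensorProduct.induction_on with
    | zero => simp
    | add x y hx hy => rw [map_add, inner_add_left, inner_add_left, hx, hy]
    | tmul a b =>
      induction t using TensorProduct.induction_on with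
      | zero => simp
      | add x y hx hy => rw [map_add, inner_add_right, inner_add_right, hx, hy]
      | tmul c d =>
        rw [TensorProduct.mapL_tmul, TensorProduct.mapL_tmul, TensorProduct.inner_tmul,
          TensorProduct.inner_tmul, ContinuousLinearMap.star_eq_adjoint,
          ContinuousLinearMap.star_eq_adjoint, ContinuousLinearMap.adjoint_inner_left,
          ContinuousLinearMap.adjoint_inner_left]
  intro x y
  have h2 : (fun x => inner ℂ (tensorOp hτ (star S) (star T) x) y) =
      fun x => inner ℂ x (tensorOp hτ S T y) := by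
    refine (denseRange_emb hτ).equalizer (by fun_prop) (by fun_prop) (funext fun s => ?_)
    have h3 : (fun y => inner ℂ (tensorOp hτ (star S) (star T) (emb hτ s)) y) =
      fun y => inner ℂ (emb hτ s) (tensorOp hτ S T y) := by
      refine (denseRange_emb hτ).equalizer (by fun_prop) (by fun_prop) (funext fun t => ?_)
      simp only [Function.comp_apply]
      rw [tensorOp_emb, tensorOp_emb, inner_emb, inner_emb, h1]
    exact congrFun h3 y
  exact congrFun h2 x

end Ops

section Rep

variable {H K E : Type u} [NormedAddCommGroup H] [InnerProductSpace ℂ H] [CompleteSpace H]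
  [NormedAddCommGroup K] [InnerProductSpace ℂ K] [CompleteSpace K]
  [NormedAddCommGroup E] [InnerProductSpace ℂ E] [CompleteSpace E] {τ : H → K → E}
  (hτ : IsHilbertTensor τ)
  {A B : Type u} [CStarAlgebra A] [CStarAlgebra B]
  (π : A →⋆ₐ[ℂ] (H →L[ℂ] H)) (ρ : B →⋆ₐ[ℂ] (K →L[ℂ] K))

/-- `a ↦ π(a) ⊗ 1` -/
noncomputable def leftHom : A →⋆ₐ[ℂ] (E →L[ℂ] E) where
  toFun a := tensorOp hτ (π a) 1
  map_one' := by rw [map_one, tensorOp_one]
  map_mul' x y := by rw [← tensorOp_mul, ← map_mul, mul_one]
  map_zero' := by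
    have := tensorOp_smul_left hτ (0 : ℂ) (π 0) (1 : K →L[ℂ] K)
    rwa [zero_smul, zero_smul, ← map_zero π] at this
  map_add' x y := by rw [map_add, tensorOp_add_left]
  commutes' c := by
    rw [AlgHomClass.commutes π c, Algebra.algebraMap_eq_smul_one, tensorOp_smul_left, tensorOp_one,
      Algebra.algebraMap_eq_smul_one]
  map_star' x := by rw [tensorOp_star, map_star, star_one]

/-- `b ↦ 1 ⊗ ρ(b)` -/
noncomputable def rightHom : B →⋆ₐ[ℂ] (E →L[ℂ] E) where
  toFun b := tensorOp hτ 1 (ρ b)
  map_one' := by rw [map_one, tensorOp_one]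
  map_mul' x y := by rw [← tensorOp_mul, ← map_mul, mul_one]
  map_zero' := by
    have := tensorOp_smul_right hτ (0 : ℂ) (1 : H →L[ℂ] H) (ρ 0)
    rwa [zero_smul, zero_smul, ← map_zero ρ] at this
  map_add' x y := by rw [map_add, tensorOp_add_right]
  commutes' c := by
    rw [AlgHomClass.commutes ρ c, Algebra.algebraMap_eq_smul_one, tensorOp_smul_right, tensorOp_one,
      Algebra.algebraMap_eq_smul_one]
  map_star' x := by rw [tensorOp_star, map_star, star_one]

theorem leftHom_mul_rightHom (a : A) (b : B) :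
    leftHom hτ π a * rightHom hτ ρ b = tensorOp hτ (π a) (ρ b) := by
  change tensorOp hτ (π a) 1 * tensorOp hτ 1 (ρ b) = _
  rw [← tensorOp_mul, mul_one, one_mul]

theorem rightHom_mul_leftHom (a : A) (b : B) :
    rightHom hτ ρ b * leftHom hτ π a = tensorOp hτ (π a) (ρ b) := by
  change tensorOp hτ 1 (ρ b) * tensorOp hτ (π a) 1 = _
  rw [← tensorOp_mul, mul_one, one_mul]

/-- two commuting *-homomorphisms give one on the algebraic tensor product. -/
noncomputable def prodHom {C : Type u} [CStarAlgebra C] (α : A →⋆ₐ[ℂ] C) (β : B →⋆ₐ[ℂ] C)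
    (h : ∀ a b, Commute (α a) (β b)) : A ⊗[ℂ] B →⋆ₐ[ℂ] C :=
  { Algebra.TensorProduct.lift α.toAlgHom β.toAlgHom h with
    map_star' := by
      intro t
      change Algebra.TensorProduct.lift α.toAlgHom β.toAlgHom h (star t) =
        star (Algebra.TensorProduct.lift α.toAlgHom β.toAlgHom h t)
      induction t using TensorProduct.induction_on with
      | zero => rw [star_zero, map_zero, star_zero]
      | tmul x y =>
        rw [TensorProduct.star_tmul, Algebra.TensorProduct.lift_tmul,
          Algebra.TensorProduct.lift_tmul]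
        change α (star x) * β (star y) = star (α x * β y)
        rw [star_mul, ← map_star, ← map_star]
        exact h _ _
      | add x y hx hy => rw [star_add, map_add, map_add, hx, hy, star_add] }

theorem prodHom_tmul {C : Type u} [CStarAlgebra C] (α : A →⋆ₐ[ℂ] C) (β : B →⋆ₐ[ℂ] C)
    (h : ∀ a b, Commute (α a) (β b)) (a : A) (b : B) :
    prodHom α β h (a ⊗ₜ b) = α a * β b :=
  Algebra.TensorProduct.lift_tmul α.toAlgHom β.toAlgHom h a b

/-- `π ⊗ ρ` on the algebraic tensor product -/
noncomputable def repHom : A ⊗[ℂ] B →⋆ₐ[ℂ] (E →L[ℂ] E) :=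
  prodHom (leftHom hτ π) (rightHom hτ ρ) fun a b => by
    rw [commute_iff_eq, leftHom_mul_rightHom, rightHom_mul_leftHom]

theorem repHom_tmul (a : A) (b : B) : repHom hτ π ρ (a ⊗ₜ b) = tensorOp hτ (π a) (ρ b) := by
  rw [repHom, prodHom_tmul, leftHom_mul_rightHom]

theorem spatialTensor_eq : spatialTensor τ π ρ = closure (Set.range (repHom hτ π ρ)) := by
  rw [spatialTensor]
  congr 1
  have : Submodule.span ℂ {T | ∃ a b, IsTensorOp τ (π a) (ρ b) T} =
      LinearMap.range (repHom hτ π ρ).toAlgHom.toLinearMap := by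
    apply le_antisymm
    · rw [Submodule.span_le]
      rintro T ⟨a, b, h⟩
      rw [isTensorOp_iff hτ] at h
      rw [h]
      exact ⟨a ⊗ₜ b, repHom_tmul hτ π ρ a b⟩
    · rintro _ ⟨t, rfl⟩
      change repHom hτ π ρ t ∈ _
      induction t using TensorProduct.induction_on with
      | zero => rw [map_zero]; exact zero_mem _
      | add s t hs ht => rw [map_add]; exact add_mem hs ht
      | tmul a b =>
        rw [repHom_tmul]
        exact Submodule.subset_span ⟨a, b, (isTensorOp_iff hτ _ _ _).2 rfl⟩
  rw [this]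
  rfl

/-- the slice map of a functional on `A` -/
noncomputable def slice (φ : A →ₗ[ℂ] ℂ) : A ⊗[ℂ] B →ₗ[ℂ] B :=
  TensorProduct.lift ((LinearMap.lsmul ℂ B).comp φ)

theorem slice_tmul (φ : A →ₗ[ℂ] ℂ) (a : A) (b : B) : slice φ (a ⊗ₜ[ℂ] b) = φ a • b := rfl

/-- the functional `a ↦ ⟪x', π(a) x⟫` -/
noncomputable def vecFun (x x' : H) : A →ₗ[ℂ] ℂ where
  toFun a := inner ℂ x' (π a x)
  map_add' a b := by rw [map_add, _root_.add_apply, inner_add_right]
  map_smul' c a := by rw [map_smul, _root_.smul_apply, inner_smul_right]; rfl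

theorem inner_repHom (t : A ⊗[ℂ] B) (x x' : H) (y y' : K) :
    inner ℂ (emb hτ (x' ⊗ₜ[ℂ] y')) (repHom hτ π ρ t (emb hτ (x ⊗ₜ[ℂ] y))) =
      inner ℂ y' (ρ (slice (vecFun π x x') t) y) := by
  induction t using TensorProduct.induction_on with
  | zero => simp
  | add s t hs ht =>
    rw [map_add, _root_.add_apply, inner_add_right, hs, ht, map_add, map_add, _root_.add_apply,
      inner_add_right]
  | tmul a b =>
    rw [repHom_tmul, tensorOp_emb, TensorProduct.mapL_tmul, inner_emb, TensorProduct.inner_tmul,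
      slice_tmul, map_smul, _root_.smul_apply, inner_smul_right]
    rfl

theorem repHom_injective (hπ : Function.Injective π) (hρ : Function.Injective ρ) :
    Function.Injective (repHom hτ π ρ) := by
  rw [injective_iff_map_eq_zero]
  intro t ht
  have h1 : ∀ x x' : H, slice (vecFun π x x') t = 0 := by
    intro x x'
    apply hρ
    rw [map_zero]
    ext y
    refine ext_inner_left ℂ fun y' => ?_
    rw [← inner_repHom hτ, ht]
    simp
  let b := Module.Free.chooseBasis ℂ B
  let e := TensorProduct.equivFinsuppOfBasisRight (M := A) b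
  have h2 : ∀ x x' : H, ∀ i, vecFun π x x' (e t i) = 0 := by
    intro x x' i
    have h3 : ∀ s : A ⊗[ℂ] B, b.repr (slice (vecFun π x x') s) i = vecFun π x x' (e s i) := by
      intro s
      induction s using TensorProduct.induction_on with
      | zero => simp
      | add s t hs ht => simp only [map_add, Finsupp.add_apply, hs, ht]
      | tmul a c =>
        rw [slice_tmul, TensorProduct.equivFinsuppOfBasisRight_apply_tmul_apply]
        simp [mul_comm]
    rw [← h3, h1, map_zero]
    rfl
  have h4 : e t = 0 := by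
    ext i
    apply hπ
    rw [Finsupp.zero_apply, map_zero]
    ext x
    exact ext_inner_left ℂ fun x' => by simpa [vecFun] using h2 x x' i
  exact e.injective (by rw [h4, map_zero])

end Rep

end P101B
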