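import Mathlib
import Vale.Agent.Lib.P101B.Spatial
import Vale.Agent.Lib.P101.Transfer
import Vale.Agent.Lib.P101.TransferB

/-!
# Derivation of the properties used in `P101` from the textbook ones
-/

open scoped TensorProduct BoundedContinuousFunction Topology ComplexOrder
open Filter

namespace P101B

universe u

section Dense

variable {H K E : Type u} [NormedAddCommGroup H] [InnerProductSpace ℂ H] [CompleteSpace H]
  [NormedAddCommGroup K] [InnerProductSpace ℂ K] [CompleteSpace K]
  [NormedAddCommGroup E] [InnerProductSpace ℂ E] [CompleteSpace E] {τ : H → K → E}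
  (hτ : IsHilbertTensor τ)
  {A B : Type u} [CStarAlgebra A] [CStarAlgebra B]
  (π : A →⋆ₐ[ℂ] (H →L[ℂ] H)) (ρ : B →⋆ₐ[ℂ] (K →L[ℂ] K))

/-- the spatial tensor product as a *-subalgebra. -/
noncomputable def spAlg : StarSubalgebra ℂ (E →L[ℂ] E) :=
  (repHom hτ π ρ).range.topologicalClosure

theorem coe_spAlg : (spAlg hτ π ρ : Set (E →L[ℂ] E)) = spatialTensor τ π ρ :=
  (spatialTensor_eq hτ π ρ).symm

instance spAlg_isClosed : IsClosed (spAlg hτ π ρ : Set (E →L[ℂ] E)) :=
  StarSubalgebra.isClosed_topologicalClosure _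

theorem repHom_mem (t : A ⊗[ℂ] B) : repHom hτ π ρ t ∈ spAlg hτ π ρ :=
  StarSubalgebra.le_topologicalClosure _ ⟨t, rfl⟩

/-- the map from the algebraic tensor product to the spatial one. -/
noncomputable def spatialMap : A ⊗[ℂ] B →⋆ₐ[ℂ] spAlg hτ π ρ :=
  StarAlgHom.codRestrict (repHom hτ π ρ) (spAlg hτ π ρ) (repHom_mem hτ π ρ)

theorem spatialMap_injective (hπ : Function.Injective π) (hρ : Function.Injective ρ) :
    Function.Injective (spatialMap hτ π ρ) := fun _ _ h =>
  repHom_injective hτ π ρ hπ hρ (congrArg Subtype.val h)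

theorem denseRange_spatialMap : DenseRange (spatialMap hτ π ρ) := by
  intro x
  rw [closure_subtype]
  have hR : (((↑) : spAlg hτ π ρ → E →L[ℂ] E) '' Set.range (spatialMap hτ π ρ)) =
      ((repHom hτ π ρ).range : Set _) := by
    ext c
    constructor
    · rintro ⟨_, ⟨t, rfl⟩, rfl⟩
      exact ⟨t, rfl⟩
    · rintro ⟨t, rfl⟩
      exact ⟨spatialMap hτ π ρ t, ⟨t, rfl⟩, rfl⟩
  rw [hR]
  exact x.2

theorem isoSpatial_of {C : Type u} [CStarAlgebra C] (h : Nonempty (C ≃⋆ₐ[ℂ] spAlg hτ π ρ)) :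
    IsoSpatial C τ π ρ := by
  obtain ⟨e⟩ := h
  refine ⟨fun c => (e c : E →L[ℂ] E), ⟨fun a b => ?_, fun c a => ?_, fun a b => ?_, fun a => ?_, ?_,
    fun x y hxy => e.injective (Subtype.ext hxy)⟩, ?_⟩
  · exact congrArg Subtype.val (map_add e a b)
  · exact congrArg Subtype.val (map_smul e c a)
  · exact congrArg Subtype.val (map_mul e a b)
  · exact congrArg Subtype.val (map_star e a)
  · exact congrArg Subtype.val (map_one e)
  · rw [← coe_spAlg hτ π ρ]
    ext T
    constructor
    · rintro ⟨c, rfl⟩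
      exact (e c).2
    · intro hT
      exact ⟨e.symm ⟨T, hT⟩, congrArg Subtype.val (e.apply_symm_apply ⟨T, hT⟩)⟩

end Dense

section Flip

/-- the canonical Hilbert space tensor product. -/
noncomputable def canTensor (H K : Type u) [NormedAddCommGroup H] [InnerProductSpace ℂ H]
    [NormedAddCommGroup K] [InnerProductSpace ℂ K] :
    H → K → UniformSpace.Completion (H ⊗[ℂ] K) :=
  fun x y => ((x ⊗ₜ[ℂ] y : H ⊗[ℂ] K) : UniformSpace.Completion (H ⊗[ℂ] K))

theorem isHilbertTensor_can (H K : Type u) [NormedAddCommGroup H] [InnerProductSpace ℂ H]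
    [NormedAddCommGroup K] [InnerProductSpace ℂ K] : IsHilbertTensor (canTensor H K) := by
  constructor
  · intro x x' y y'
    change inner ℂ ((x ⊗ₜ[ℂ] y : H ⊗[ℂ] K) : UniformSpace.Completion (H ⊗[ℂ] K))
      ((x' ⊗ₜ[ℂ] y' : H ⊗[ℂ] K) : UniformSpace.Completion (H ⊗[ℂ] K)) = _
    rw [UniformSpace.Completion.inner_coe, TensorProduct.inner_tmul]
  · have h1 : Dense (Set.range ((↑) : H ⊗[ℂ] K → UniformSpace.Completion (H ⊗[ℂ] K))) :=
      UniformSpace.Completion.denseRange_coe
    refine h1.mono ?_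
    rintro _ ⟨t, rfl⟩
    induction t using TensorProduct.induction_on with
    | zero =>
      rw [UniformSpace.Completion.coe_zero]
      exact zero_mem _
    | add s t hs ht =>
      rw [UniformSpace.Completion.coe_add]
      exact Submodule.add_mem _ hs ht
    | tmul a b => exact Submodule.subset_span ⟨a, b, rfl⟩

theorem isRep_of_hom {A H : Type u} [CStarAlgebra A] [NormedAddCommGroup H] [InnerProductSpace ℂ H]
    [CompleteSpace H] (π : A →⋆ₐ[ℂ] (H →L[ℂ] H)) (hπ : Function.Injective π) : IsRep ⇑π :=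
  ⟨map_add π, map_smul π, map_mul π, map_star π, map_one π, hπ⟩

/-- a faithful representation as a *-homomorphism. -/
noncomputable def IsRep.hom {A H : Type u} [CStarAlgebra A] [NormedAddCommGroup H]
    [InnerProductSpace ℂ H] [CompleteSpace H] {π : A → H →L[ℂ] H} (hπ : IsRep π) :
    A →⋆ₐ[ℂ] (H →L[ℂ] H) where
  toFun := π
  map_one' := hπ.map_one
  map_mul' := hπ.map_mul
  map_zero' := by
    have := hπ.map_smul 0 0
    rwa [zero_smul, zero_smul] at this
  map_add' := hπ.map_add
  commutes' c := by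
    rw [Algebra.algebraMap_eq_smul_one, hπ.map_smul, hπ.map_one, Algebra.algebraMap_eq_smul_one]
  map_star' := hπ.map_star

theorem approxInnerHalfFlip_aux {Z : Type u} [CStarAlgebra Z] (hn : IsNuclear Z)
    {K E : Type u} [NormedAddCommGroup K] [InnerProductSpace ℂ K] [CompleteSpace K]
    [NormedAddCommGroup E] [InnerProductSpace ℂ E] [CompleteSpace E] {τ : K → K → E}
    (hτ : IsHilbertTensor τ)
    (ρ : Z →⋆ₐ[ℂ] (K →L[ℂ] K)) (hρ : Function.Injective ρ) (hf : FlipIn τ ρ) :
    P101.ApproxInnerHalfFlip Z := by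
  intro C _ α β hαβ S ε hε
  let m : Z ⊗[ℂ] Z →⋆ₐ[ℂ] spAlg hτ ρ ρ := spatialMap hτ ρ ρ
  have hm : Function.Injective m := spatialMap_injective hτ ρ ρ hρ hρ
  let μ : Z ⊗[ℂ] Z →⋆ₐ[ℂ] C := prodHom α β hαβ
  let Φ : Z ⊗[ℂ] Z →⋆ₐ[ℂ] (spAlg hτ ρ ρ) × C := m.prod μ
  have hΦ : Function.Injective Φ := fun s t h => hm (congrArg Prod.fst h)
  have hnorm : ∀ t, ‖μ t‖ ≤ ‖m t‖ := by
    intro t
    rw [← hn Z _ _ Φ m hΦ hm t]
    exact norm_snd_le (Φ t)
  let F : StarSubalgebra ℂ ((spAlg hτ ρ ρ) × C) := Φ.range.topologicalClosure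
  have hF : ∀ e ∈ F, ‖e.2‖ ≤ ‖e.1‖ := by
    intro e he
    have h1 : (F : Set ((spAlg hτ ρ ρ) × C)) ⊆ {e | ‖e.2‖ ≤ ‖e.1‖} := by
      refine closure_minimal ?_ (isClosed_le (by fun_prop) (by fun_prop))
      rintro _ ⟨t, rfl⟩
      exact hnorm t
    exact h1 he
  have hΦF : ∀ t, Φ t ∈ F := fun t => StarSubalgebra.le_topologicalClosure _ ⟨t, rfl⟩
  have hex : ∀ d : spAlg hτ ρ ρ, ∃ v : C, (d, v) ∈ F ∧
      v ∈ (StarAlgebra.adjoin ℂ (Set.range α ∪ Set.range β)).topologicalClosure := by
    intro d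
    obtain ⟨x, hx, hxd⟩ := mem_closure_iff_seq_limit.1 (denseRange_spatialMap hτ ρ ρ d)
    choose t ht using hx
    have hc : CauchySeq fun n => m (t n) := by
      have : (fun n => m (t n)) = x := funext ht
      rw [this]
      exact hxd.cauchySeq
    have hc' : CauchySeq fun n => μ (t n) := by
      rw [Metric.cauchySeq_iff] at hc ⊢
      intro δ hδ
      obtain ⟨N, hN⟩ := hc δ hδ
      refine ⟨N, fun k hk l hl => ?_⟩
      refine lt_of_le_of_lt ?_ (hN k hk l hl)
      rw [dist_eq_norm, dist_eq_norm, ← map_sub, ← map_sub]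
      exact hnorm _
    obtain ⟨v, hv⟩ := cauchySeq_tendsto_of_complete hc'
    refine ⟨v, ?_, ?_⟩
    · have h2 : Tendsto (fun n => Φ (t n)) atTop (𝓝 (d, v)) := by
        have h3 : Tendsto (fun n => m (t n)) atTop (𝓝 d) := by
          have : (fun n => m (t n)) = x := funext ht
          rw [this]
          exact hxd
        exact h3.prodMk_nhds hv
      exact (StarSubalgebra.isClosed_topologicalClosure _).mem_of_tendsto h2
        (Eventually.of_forall fun n => hΦF _)
    · refine (StarSubalgebra.isClosed_topologicalClosure _).mem_of_tendsto hv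
        (Eventually.of_forall fun n => StarSubalgebra.le_topologicalClosure _ ?_)
      have h4 : ∀ s : Z ⊗[ℂ] Z, μ s ∈ StarAlgebra.adjoin ℂ (Set.range α ∪ Set.range β) := by
        intro s
        induction s using TensorProduct.induction_on with
        | zero => rw [map_zero]; exact zero_mem _
        | add s t hs ht => rw [map_add]; exact add_mem hs ht
        | tmul a b =>
          rw [show μ (a ⊗ₜ b) = α a * β b from prodHom_tmul α β hαβ a b]
          exact mul_mem (StarAlgebra.subset_adjoin ℂ _ (Or.inl ⟨a, rfl⟩))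
            (StarAlgebra.subset_adjoin ℂ _ (Or.inr ⟨b, rfl⟩))
      exact h4 _
  obtain ⟨u, hu, hu1, hu2, hu3⟩ := hf S ε hε
  rw [← coe_spAlg hτ ρ ρ] at hu
  have hu : u ∈ spAlg hτ ρ ρ := hu
  obtain ⟨v, hvE, hv⟩ := hex ⟨u, hu⟩
  have hzero : ∀ e ∈ F, e.1 = 0 → e.2 = 0 := by
    intro e he h
    have := hF e he
    rw [h, norm_zero] at this
    exact norm_le_zero_iff.1 this
  refine ⟨v, hv, ⟨?_, ?_⟩, fun z hz => ?_⟩
  · have h5 := hzero _ (sub_mem (mul_mem (star_mem hvE) hvE) (one_mem F))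
      (Subtype.ext (by simpa [sub_eq_zero] using hu1))
    exact sub_eq_zero.1 h5
  · have h5 := hzero _ (sub_mem (mul_mem hvE (star_mem hvE)) (one_mem F))
      (Subtype.ext (by simpa [sub_eq_zero] using hu2))
    exact sub_eq_zero.1 h5
  · have h6 := hF _ (sub_mem (mul_mem (mul_mem hvE (hΦF (z ⊗ₜ 1))) (star_mem hvE))
      (hΦF (1 ⊗ₜ z)))
    have h7 : ((((⟨u, hu⟩ : spAlg hτ ρ ρ), v) * Φ (z ⊗ₜ 1) *
        star ((⟨u, hu⟩ : spAlg hτ ρ ρ), v) - Φ (1 ⊗ₜ z)).2 : C) =
        v * α z * star v - β z := by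
      change v * μ (z ⊗ₜ 1) * star v - μ (1 ⊗ₜ z) = _
      rw [show μ (z ⊗ₜ 1) = α z * β 1 from prodHom_tmul α β hαβ z 1,
        show μ (1 ⊗ₜ z) = α 1 * β z from prodHom_tmul α β hαβ 1 z, map_one, map_one, mul_one,
        one_mul]
    rw [h7] at h6
    refine lt_of_le_of_lt h6 ?_
    have h8 := hu3 z hz (tensorOp hτ (ρ z) 1) (tensorOp hτ 1 (ρ z))
      ((isTensorOp_iff hτ _ _ _).2 rfl) ((isTensorOp_iff hτ _ _ _).2 rfl)
    have h9 : ‖(((⟨u, hu⟩ : spAlg hτ ρ ρ), v) * Φ (z ⊗ₜ 1) *
        star ((⟨u, hu⟩ : spAlg hτ ρ ρ), v) - Φ (1 ⊗ₜ z)).1‖ =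
        ‖u * tensorOp hτ (ρ z) 1 * star u - tensorOp hτ 1 (ρ z)‖ := by
      change ‖u * repHom hτ ρ ρ (z ⊗ₜ 1) * star u - repHom hτ ρ ρ (1 ⊗ₜ z)‖ = _
      rw [repHom_tmul, repHom_tmul, map_one]
    rw [h9]
    exact h8

theorem approxInnerHalfFlip {Z : Type u} [CStarAlgebra Z] (hn : IsNuclear Z) (hf : HasHalfFlip Z)
    {K : Type u} [NormedAddCommGroup K] [InnerProductSpace ℂ K] [CompleteSpace K]
    {ρ : Z → K →L[ℂ] K} (hρ : IsRep ρ) : P101.ApproxInnerHalfFlip Z :=
  approxInnerHalfFlip_aux hn (isHilbertTensor_can K K) hρ.hom hρ.injective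
    (hf K _ (canTensor K K) ρ (isHilbertTensor_can K K) hρ)

end Flip

section Limit

/-- an element of `I(p, q)`. -/
def mkDrop {p q : ℕ} {f : unitInterval → Matrix (Fin p × Fin q) (Fin p × Fin q) ℂ}
    (hf : InDrop p q f) : P101.dimDrop p q :=
  ⟨⟨f, hf.1⟩, hf.2⟩

theorem inDrop {p q : ℕ} (F : P101.dimDrop p q) : InDrop p q ⇑F.1 := ⟨F.1.continuous, F.2⟩

theorem InDrop.add {p q : ℕ} {f g : unitInterval → Matrix (Fin p × Fin q) (Fin p × Fin q) ℂ}
    (hf : InDrop p q f) (hg : InDrop p q g) : InDrop p q (f + g) :=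
  inDrop (mkDrop hf + mkDrop hg)

theorem InDrop.mul {p q : ℕ} {f g : unitInterval → Matrix (Fin p × Fin q) (Fin p × Fin q) ℂ}
    (hf : InDrop p q f) (hg : InDrop p q g) : InDrop p q (f * g) :=
  inDrop (mkDrop hf * mkDrop hg)

theorem InDrop.smul {p q : ℕ} (c : ℂ)
    {f : unitInterval → Matrix (Fin p × Fin q) (Fin p × Fin q) ℂ}
    (hf : InDrop p q f) : InDrop p q (c • f) :=
  inDrop (c • mkDrop hf)

theorem InDrop.star {p q : ℕ} {f : unitInterval → Matrix (Fin p × Fin q) (Fin p × Fin q) ℂ}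
    (hf : InDrop p q f) : InDrop p q (star f) :=
  inDrop (Star.star (mkDrop hf))

/-- an injective unital *-homomorphism of the dimension drop algebra -/
noncomputable def IsDropHom.hom {Z : Type u} [CStarAlgebra Z] {p q : ℕ}
    {j : (unitInterval → Matrix (Fin p × Fin q) (Fin p × Fin q) ℂ) → Z} (hj : IsDropHom p q j) :
    P101.dimDrop p q →⋆ₐ[ℂ] Z where
  toFun F := j ⇑F.1
  map_one' := hj.map_one
  map_mul' F G := hj.map_mul _ _ (inDrop F) (inDrop G)
  map_zero' := by
    have := hj.map_smul 0 _ (inDrop (0 : P101.dimDrop p q))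
    rwa [zero_smul, zero_smul] at this
  map_add' F G := hj.map_add _ _ (inDrop F) (inDrop G)
  commutes' c := by
    have h1 := hj.map_smul c 1 (inDrop (1 : P101.dimDrop p q))
    rw [hj.map_one, ← Algebra.algebraMap_eq_smul_one (A := Z)] at h1
    rw [← h1, Algebra.algebraMap_eq_smul_one]
    rfl
  map_star' F := hj.map_star _ (inDrop F)

theorem IsDropHom.hom_injective {Z : Type u} [CStarAlgebra Z] {p q : ℕ}
    {j : (unitInterval → Matrix (Fin p × Fin q) (Fin p × Fin q) ℂ) → Z} (hj : IsDropHom p q j) :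
    Function.Injective hj.hom := fun F G h =>
  Subtype.ext (DFunLike.coe_injective (hj.injective _ _ (inDrop F) (inDrop G) h))

theorem isLimit_of {Z : Type u} [CStarAlgebra Z] (h : IsPrimeDimDropLimit Z) :
    P101.IsLimitOfPrimeDimDrops Z := by
  obtain ⟨R, h1, h2, h3⟩ := h
  choose p q hp hq hpq hcl j hj hjr using h1
  have hr : ∀ k, ((hj k).hom.range : Set Z) = R k := by
    intro k
    ext z
    rw [hjr k z]
    constructor
    · rintro ⟨F, rfl⟩
      exact ⟨_, inDrop F, rfl⟩
    · rintro ⟨f, hf, rfl⟩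
      exact ⟨mkDrop hf, rfl⟩
  refine P101.isLimit_of_dimDropLimit ⟨fun k => (hj k).hom.range, ?_, ?_, fun k => ?_⟩
  · refine monotone_nat_of_le_succ fun k x hx => ?_
    have h4 : x ∈ R k := by rw [← hr]; exact hx
    have h5 := h2 k h4
    rw [← hr] at h5
    exact h5
  · simpa only [hr] using h3
  · exact ⟨p k, q k, hp k, hq k, hpq k,
      ⟨by rw [hr]; exact hcl k, (hj k).hom, (hj k).hom_injective, rfl⟩⟩

end Limit

section Chars

variable {ω : Ultrafilter ℕ} {A : Type u} [CStarAlgebra A] [Nontrivial A]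

theorem ultraMap_eq_zero {x : ℕ →ᵇ A} : P101.ultraMap ω A x = 0 ↔ IsNull ω ⇑x :=
  (P101.isUltrapowerMap_ultraMap ω A).2 x

theorem ultraMap_eq {x y : ℕ →ᵇ A} :
    P101.ultraMap ω A x = P101.ultraMap ω A y ↔ IsNull ω (fun n => x n - y n) := by
  rw [← sub_eq_zero, ← map_sub, ultraMap_eq_zero]
  rfl

theorem null_of {x y : ℕ →ᵇ A} (h : P101.ultraMap ω A x = P101.ultraMap ω A y) :
    IsNull ω (fun n => x n - y n) :=
  ultraMap_eq.1 h

theorem isCentral_iff {x : ℕ →ᵇ A} :
    IsCentral ω x ↔ P101.ultraMap ω A x ∈ P101.centralSeq ω A := by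
  rw [P101.mem_centralSeq]
  refine forall_congr' fun a => ?_
  rw [← P101.ultraMap_const, ← map_mul, ← map_mul, eq_comm, ultraMap_eq]
  rfl

/-- the class in `F_ω(A)` of a central sequence -/
noncomputable def cls (x : ℕ →ᵇ A) (hx : IsCentral ω x) : P101.FOmega ω A :=
  ⟨P101.ultraMap ω A x, isCentral_iff.1 hx⟩

theorem cls_surjective (y : P101.FOmega ω A) : ∃ (x : ℕ →ᵇ A) (hx : IsCentral ω x),
    cls x hx = y := by
  obtain ⟨y, hy⟩ := y
  obtain ⟨x, rfl⟩ := (P101.isUltrapowerMap_ultraMap ω A).1 y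
  exact ⟨x, isCentral_iff.2 hy, rfl⟩

theorem cls_eq {x y : ℕ →ᵇ A} {hx : IsCentral ω x} {hy : IsCentral ω y} :
    cls x hx = cls y hy ↔ IsNull ω (fun n => x n - y n) := by
  rw [← ultraMap_eq, ← Subtype.coe_inj]
  rfl

theorem IsCentral.add {x y : ℕ →ᵇ A} (hx : IsCentral ω x) (hy : IsCentral ω y) :
    IsCentral ω (x + y) := by
  rw [isCentral_iff, map_add] at *
  exact add_mem hx hy

theorem IsCentral.mul {x y : ℕ →ᵇ A} (hx : IsCentral ω x) (hy : IsCentral ω y) :
    IsCentral ω (x * y) := by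
  rw [isCentral_iff, map_mul] at *
  exact mul_mem hx hy

theorem IsCentral.smul {x : ℕ →ᵇ A} (c : ℂ) (hx : IsCentral ω x) : IsCentral ω (c • x) := by
  rw [isCentral_iff, map_smul] at *
  exact (P101.centralSeq ω A).smul_mem hx c

theorem IsCentral.star {x : ℕ →ᵇ A} (hx : IsCentral ω x) : IsCentral ω (star x) := by
  rw [isCentral_iff, map_star] at *
  exact star_mem hx

theorem isCentral_one : IsCentral ω (1 : ℕ →ᵇ A) := by
  rw [isCentral_iff, map_one]
  exact one_mem _

theorem isCentral_of_null {x : ℕ →ᵇ A} (hx : IsNull ω ⇑x) : IsCentral ω x := by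
  rw [isCentral_iff, ultraMap_eq_zero.2 hx]
  exact zero_mem _

theorem noCharacters_iff :
    (¬ ∃ χ : (ℕ →ᵇ A) → ℂ, IsCharacter ω χ) ↔ IsEmpty (P101.FOmega ω A →⋆ₐ[ℂ] ℂ) := by
  classical
  constructor
  · intro h
    refine ⟨fun χ => h ⟨fun x => if hx : IsCentral ω x then χ (cls x hx) else 0, ?_⟩⟩
    constructor
    · intro x y hx hy
      rw [dif_pos hx, dif_pos hy, dif_pos (hx.add hy), ← map_add]
      exact congrArg χ (Subtype.ext (map_add _ _ _))
    · intro c x hx
      rw [dif_pos hx, dif_pos (hx.smul c), ← smul_eq_mul, ← map_smul]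
      exact congrArg χ (Subtype.ext (map_smul _ _ _))
    · intro x y hx hy
      rw [dif_pos hx, dif_pos hy, dif_pos (hx.mul hy), ← map_mul]
      exact congrArg χ (Subtype.ext (map_mul _ _ _))
    · intro x hx
      rw [dif_pos hx, dif_pos hx.star, ← map_star]
      exact congrArg χ (Subtype.ext (map_star _ _))
    · rw [dif_pos isCentral_one, ← map_one χ]
      exact congrArg χ (Subtype.ext (map_one _))
    · intro x hx
      rw [dif_pos (isCentral_of_null hx), ← map_zero χ]
      exact congrArg χ (Subtype.ext (ultraMap_eq_zero.2 hx))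
  · rintro h ⟨χ, hχ⟩
    choose s hs hs' using fun y : P101.FOmega ω A => cls_surjective y
    have key : ∀ x (_ : IsCentral ω x) y (_ : IsCentral ω y),
        P101.ultraMap ω A x = P101.ultraMap ω A y → χ x = χ y := by
      intro x hx y hy hxy
      have h0 : IsNull ω ⇑(x - y) := null_of hxy
      have h1 := hχ.map_null _ h0
      have h2 : x = y + (x - y) := by abel
      have h3 : IsCentral ω (x - y) := isCentral_of_null h0
      rw [h2, hχ.map_add y (x - y) hy h3, h1, add_zero]
    have hu : ∀ y : P101.FOmega ω A, P101.ultraMap ω A (s y) = y := fun y =>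
      congrArg Subtype.val (hs' y)
    refine h.false
      { toFun := fun y => χ (s y)
        map_one' := ?_
        map_mul' := fun x y => ?_
        map_zero' := ?_
        map_add' := fun x y => ?_
        commutes' := fun c => ?_
        map_star' := fun x => ?_ }
    · rw [← hχ.map_one]
      exact key _ (hs _) _ isCentral_one (by rw [hu, map_one]; rfl)
    · rw [← hχ.map_mul _ _ (hs x) (hs y)]
      exact key _ (hs _) _ ((hs x).mul (hs y)) (by rw [hu, map_mul, hu, hu]; rfl)
    · have h1 := key (s 0) (hs 0) ((0 : ℂ) • (1 : ℕ →ᵇ A)) (isCentral_one.smul 0)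
        (by rw [hu, zero_smul, map_zero]; rfl)
      rw [h1, hχ.map_smul 0 1 isCentral_one, zero_mul]
    · rw [← hχ.map_add _ _ (hs x) (hs y)]
      exact key _ (hs _) _ ((hs x).add (hs y)) (by rw [hu, map_add, hu, hu]; rfl)
    · have h1 := key (s (algebraMap ℂ _ c)) (hs _) (c • (1 : ℕ →ᵇ A)) (isCentral_one.smul c)
        (by rw [hu, map_smul, map_one, Algebra.algebraMap_eq_smul_one]; rfl)
      change χ (s (algebraMap ℂ _ c)) = c
      rw [h1, hχ.map_smul c 1 isCentral_one, hχ.map_one, mul_one]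
    · rw [← hχ.map_star _ (hs x)]
      exact key _ (hs _) _ (hs x).star (by rw [hu, map_star, hu]; rfl)

theorem exists_centralHom_iff (p q : ℕ) :
    (∃ φ : (unitInterval → Matrix (Fin p × Fin q) (Fin p × Fin q) ℂ) → (ℕ →ᵇ A),
      IsCentralHom ω p q φ) ↔ Nonempty (P101.dimDrop p q →⋆ₐ[ℂ] P101.FOmega ω A) := by
  classical
  constructor
  · rintro ⟨φ, hφ⟩
    let c : P101.dimDrop p q → P101.FOmega ω A := fun F => cls (φ ⇑F.1) (hφ.central _ (inDrop F))
    have hsm : ∀ (r : ℂ) F, c (r • F) = r • c F := by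
      intro r F
      refine Subtype.ext ?_
      change P101.ultraMap ω A _ = r • P101.ultraMap ω A _
      rw [← map_smul]
      exact ultraMap_eq.2 (hφ.map_smul r _ (inDrop F))
    have h1 : c 1 = 1 := by
      refine Subtype.ext ?_
      change P101.ultraMap ω A _ = 1
      rw [← map_one (P101.ultraMap ω A)]
      exact ultraMap_eq.2 hφ.map_one
    refine ⟨{ toFun := c
              map_one' := h1
              map_mul' := fun F G => by
                refine Subtype.ext ?_
                change P101.ultraMap ω A _ = P101.ultraMap ω A _ * P101.ultraMap ω A _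
                rw [← map_mul]
                exact ultraMap_eq.2 (hφ.map_mul _ _ (inDrop F) (inDrop G))
              map_zero' := by
                have := hsm 0 0
                rwa [zero_smul, zero_smul] at this
              map_add' := fun F G => by
                refine Subtype.ext ?_
                change P101.ultraMap ω A _ = P101.ultraMap ω A _ + P101.ultraMap ω A _
                rw [← map_add]
                exact ultraMap_eq.2 (hφ.map_add _ _ (inDrop F) (inDrop G))
              commutes' := fun r => by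
                rw [Algebra.algebraMap_eq_smul_one, Algebra.algebraMap_eq_smul_one, hsm, h1]
              map_star' := fun F => by
                refine Subtype.ext ?_
                change P101.ultraMap ω A _ = star (P101.ultraMap ω A _)
                rw [← map_star]
                exact ultraMap_eq.2 (hφ.map_star _ (inDrop F)) }⟩
  · rintro ⟨f⟩
    choose ψ hψ hψ' using fun F => cls_surjective (f F)
    have hu : ∀ F, P101.ultraMap ω A (ψ F) = f F := fun F => congrArg Subtype.val (hψ' F)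
    let φ : (unitInterval → Matrix (Fin p × Fin q) (Fin p × Fin q) ℂ) → (ℕ →ᵇ A) := fun g =>
      if hg : InDrop p q g then ψ (mkDrop hg) else 0
    have hφ : ∀ g (hg : InDrop p q g), φ g = ψ (mkDrop hg) := fun g hg => dif_pos hg
    have h1 : InDrop p q (1 : unitInterval → Matrix (Fin p × Fin q) (Fin p × Fin q) ℂ) :=
      inDrop (1 : P101.dimDrop p q)
    refine ⟨φ, ⟨fun x y hx hy => ?_, fun c x hx => ?_, fun x y hx hy => ?_, fun x hx => ?_, ?_,
      fun x hx => by rw [hφ x hx]; exact hψ _⟩⟩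
    · rw [hφ _ hx, hφ _ hy, hφ _ (hx.add hy)]
      refine null_of (x := ψ (mkDrop (hx.add hy))) (y := ψ (mkDrop hx) + ψ (mkDrop hy)) ?_
      rw [hu, map_add, hu, hu]
      exact congrArg Subtype.val (map_add f (mkDrop hx) (mkDrop hy))
    · rw [hφ _ hx, hφ _ (hx.smul c)]
      refine null_of (x := ψ (mkDrop (hx.smul c))) (y := c • ψ (mkDrop hx)) ?_
      rw [hu, map_smul, hu]
      exact congrArg Subtype.val (map_smul f c (mkDrop hx))
    · rw [hφ _ hx, hφ _ hy, hφ _ (hx.mul hy)]
      refine null_of (x := ψ (mkDrop (hx.mul hy))) (y := ψ (mkDrop hx) * ψ (mkDrop hy)) ?_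
      rw [hu, map_mul, hu, hu]
      exact congrArg Subtype.val (map_mul f (mkDrop hx) (mkDrop hy))
    · rw [hφ _ hx, hφ _ hx.star]
      refine null_of (x := ψ (mkDrop hx.star)) (y := star (ψ (mkDrop hx))) ?_
      rw [hu, map_star, hu]
      exact congrArg Subtype.val (map_star f (mkDrop hx))
    · rw [hφ _ h1]
      refine null_of (x := ψ (mkDrop h1)) (y := 1) ?_
      rw [hu, map_one]
      exact congrArg Subtype.val (map_one f)

end Chars

end P101B
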